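import Mathlib

/-!
# P022-X [COS]: cosets of `Γ₀(M)` in `SL₂(ℤ)` with representatives in `Γ(N)`, `N` prime to `M`
-/

open scoped MatrixGroups
open CongruenceSubgroup

namespace Vale.Agent.P022.H875

theorem T_zpow_mem {N : ℕ} {n : ℤ} (h : (N : ℤ) ∣ n) : ModularGroup.T ^ n ∈ Gamma N :=
  ModularGroup_T_pow_mem_Gamma N n h

theorem T_mem_sup {N M : ℕ} (h : N.Coprime M) : ModularGroup.T ∈ Gamma N ⊔ Gamma M := by
  have h1 : (1 : ℤ) = N * N.gcdA M + M * N.gcdB M := by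
    have := Nat.gcd_eq_gcd_ab N M
    rw [h] at this
    exact_mod_cast this
  have h2 : ModularGroup.T = ModularGroup.T ^ ((N : ℤ) * N.gcdA M) *
      ModularGroup.T ^ ((M : ℤ) * N.gcdB M) := by
    rw [← zpow_add, ← h1, zpow_one]
  rw [h2]
  exact mul_mem (Subgroup.mem_sup_left (T_zpow_mem (dvd_mul_right _ _)))
    (Subgroup.mem_sup_right (T_zpow_mem (dvd_mul_right _ _)))

theorem TSTST : ModularGroup.T * ModularGroup.S * ModularGroup.T * ModularGroup.S *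
    ModularGroup.T = ModularGroup.S := by
  apply Subtype.ext
  simp only [Matrix.SpecialLinearGroup.coe_mul, ModularGroup.coe_S, ModularGroup.coe_T,
    Matrix.mul_fin_two]
  norm_num

theorem S_eq : ModularGroup.S = (ModularGroup.T⁻¹ *
    (ModularGroup.S * ModularGroup.T⁻¹ * ModularGroup.S⁻¹) * ModularGroup.T⁻¹) := by
  have h1 : ModularGroup.S * ModularGroup.T⁻¹ * ModularGroup.S⁻¹ =
      ModularGroup.T * ModularGroup.S * ModularGroup.T := by
    rw [mul_inv_eq_iff_eq_mul, mul_inv_eq_iff_eq_mul, TSTST]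
  rw [h1]
  group

theorem S_mem_sup {N M : ℕ} (h : N.Coprime M) : ModularGroup.S ∈ Gamma N ⊔ Gamma M := by
  have i1 : (Gamma N).Normal := Gamma_normal N
  have i2 : (Gamma M).Normal := Gamma_normal M
  have i3 : (Gamma N ⊔ Gamma M).Normal := inferInstance
  have hT := T_mem_sup h
  have h1 : ModularGroup.S * ModularGroup.T⁻¹ * ModularGroup.S⁻¹ ∈ Gamma N ⊔ Gamma M :=
    i3.conj_mem _ (inv_mem hT) _
  rw [S_eq]
  exact mul_mem (mul_mem (inv_mem hT) h1) (inv_mem hT)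

theorem sup_eq_top {N M : ℕ} (h : N.Coprime M) : Gamma N ⊔ Gamma M = ⊤ := by
  rw [eq_top_iff, ← SpecialLinearGroup.SL2Z_generators, Subgroup.closure_le]
  intro x hx
  rcases hx with hx | hx
  · rw [hx]
    exact S_mem_sup h
  · rw [Set.mem_singleton_iff] at hx
    rw [hx]
    exact T_mem_sup h

/-- every element of `SL₂(ℤ)` is a product of an element of `Γ(M)` and an element of `Γ(N)` -/
theorem exists_mul {N M : ℕ} (h : N.Coprime M) (g : SL(2, ℤ)) :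
    ∃ b ∈ Gamma N, g * b⁻¹ ∈ Gamma M := by
  have i1 : (Gamma N).Normal := Gamma_normal N
  have hg : g ∈ Gamma M ⊔ Gamma N := by
    rw [sup_comm, sup_eq_top h]
    exact Subgroup.mem_top g
  obtain ⟨a, ha, b, hb, rfl⟩ := Subgroup.mem_sup_of_normal_right.1 hg
  exact ⟨b, hb, by simpa using ha⟩

/-- the set of right cosets of `Γ₀(M)` in `SL₂(ℤ)` -/
abbrev X (M : ℕ) : Type := Quotient (QuotientGroup.rightRel (Gamma0 M))

/-- the class of an element -/
abbrev mk (M : ℕ) (g : SL(2, ℤ)) : X M := Quotient.mk _ g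

theorem mk_eq {M : ℕ} {g h : SL(2, ℤ)} : mk M g = mk M h ↔ g * h⁻¹ ∈ Gamma0 M := by
  rw [mk, mk, Quotient.eq, QuotientGroup.rightRel_apply]
  constructor
  · intro h1
    have := inv_mem h1
    simpa using this
  · intro h1
    have := inv_mem h1
    simpa using this

theorem Gamma_le_Gamma0 (M : ℕ) : Gamma M ≤ Gamma0 M := by
  intro g hg
  rw [Gamma0_mem]
  exact (Gamma_mem.1 hg).2.2.1

theorem Gamma_le_Gamma1 (M : ℕ) : Gamma M ≤ Gamma1 M := by
  intro g hg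
  rw [Gamma1_mem]
  have := Gamma_mem.1 hg
  exact ⟨this.1, this.2.2.2, this.2.2.1⟩

theorem exists_rep {N M : ℕ} (h : N.Coprime M) (x : X M) : ∃ b ∈ Gamma N, mk M b = x := by
  obtain ⟨g, rfl⟩ := Quotient.exists_rep x
  obtain ⟨b, hb, h1⟩ := exists_mul h g
  exact ⟨b, hb, (mk_eq.2 (Gamma_le_Gamma0 M h1)).symm⟩

instance (M : ℕ) [NeZero M] : Finite (X M) := by
  have : Finite (SL(2, ℤ) ⧸ Gamma0 M) := inferInstance
  exact Finite.of_equiv _ (QuotientGroup.quotientRightRelEquivQuotientLeftRel (Gamma0 M)).symm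

/-- **[COS]**: representatives of `Γ₀(M) \ SL₂(ℤ)` in `Γ(N)`, permuted by right
multiplication; the base coset is represented by `1`. -/
theorem cos {N M : ℕ} [NeZero M] (h : N.Coprime M) :
    ∃ (ι : Type) (_ : Fintype ι) (_ : DecidableEq ι) (i0 : ι) (r : ι → SL(2, ℤ)),
      r i0 = 1 ∧ (∀ i, r i ∈ Gamma N) ∧
      (∀ i, r i ∈ Gamma0 M → i = i0) ∧
      (∀ i j, r i * (r j)⁻¹ ∈ Gamma0 M → i = j) ∧
      (∀ g : SL(2, ℤ), ∃ i, g * (r i)⁻¹ ∈ Gamma0 M) ∧
      ∀ δ : SL(2, ℤ), ∃ σ : Equiv.Perm ι, ∀ i, r i * δ * (r (σ i))⁻¹ ∈ Gamma0 M := by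
  classical
  have : Fintype (X M) := Fintype.ofFinite _
  choose s hs1 hs2 using exists_rep (N := N) (M := M) h
  let r : X M → SL(2, ℤ) := Function.update s (mk M 1) 1
  have hr0 : r (mk M 1) = 1 := Function.update_self _ _ _
  have hr1 : ∀ i, r i ∈ Gamma N := by
    intro i
    by_cases hi : i = mk M 1
    · rw [hi, hr0]
      exact one_mem _
    · have : r i = s i := Function.update_of_ne hi _ _
      rw [this]
      exact hs1 i
  have hr2 : ∀ i, mk M (r i) = i := by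
    intro i
    by_cases hi : i = mk M 1
    · rw [hi, hr0]
    · have : r i = s i := Function.update_of_ne hi _ _
      rw [this]
      exact hs2 i
  have act : ∀ (δ g g' : SL(2, ℤ)), mk M g = mk M g' → mk M (g * δ) = mk M (g' * δ) := by
    intro δ g g' h1
    rw [mk_eq] at h1 ⊢
    have : g * δ * (g' * δ)⁻¹ = g * g'⁻¹ := by group
    rwa [this]
  refine ⟨X M, inferInstance, inferInstance, mk M 1, r, hr0, hr1, ?_, ?_, ?_, ?_⟩
  · intro i hi
    rw [← hr2 i, mk_eq]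
    simpa using hi
  · intro i j hij
    rw [← hr2 i, ← hr2 j, mk_eq]
    exact hij
  · intro g
    exact ⟨mk M g, mk_eq.1 (hr2 _).symm⟩
  · intro δ
    refine ⟨⟨fun i => mk M (r i * δ), fun i => mk M (r i * δ⁻¹), ?_, ?_⟩, ?_⟩
    · intro i
      have := act δ⁻¹ _ _ (hr2 (mk M (r i * δ)))
      simp only
      rw [this, mul_inv_cancel_right, hr2]
    · intro i
      have := act δ _ _ (hr2 (mk M (r i * δ⁻¹)))
      simp only
      rw [this, inv_mul_cancel_right, hr2]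
    · intro i
      exact mk_eq.1 (hr2 _).symm

/-- the lower right entry of a product in `Γ₀(N)`, modulo `N` -/
theorem lower_mul {N : ℕ} {g h : SL(2, ℤ)} (hg : g ∈ Gamma0 N) :
    (((g * h) 1 1 : ℤ) : ZMod N) = ((g 1 1 : ℤ) : ZMod N) * ((h 1 1 : ℤ) : ZMod N) := by
  have h1 : (g * h) 1 1 = g 1 0 * h 0 1 + g 1 1 * h 1 1 := by
    rw [Matrix.SpecialLinearGroup.coe_mul, Matrix.mul_apply, Fin.sum_univ_two]
  rw [h1]
  push_cast
  rw [Gamma0_mem.1 hg, zero_mul, zero_add]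

/-- the element `r i * δ * (r j)⁻¹` with `r i, r j ∈ Γ₁(N)`, `δ ∈ Γ₀(N)`: it is in `Γ₀(N)` with
the lower right entry of `δ` modulo `N` -/
theorem conj_Gamma0 {N : ℕ} {a b δ : SL(2, ℤ)} (ha : a ∈ Gamma1 N) (hb : b ∈ Gamma1 N)
    (hδ : δ ∈ Gamma0 N) : a * δ * b⁻¹ ∈ Gamma0 N ∧
      (((a * δ * b⁻¹) 1 1 : ℤ) : ZMod N) = ((δ 1 1 : ℤ) : ZMod N) := by
  have ha0 := Gamma1_in_Gamma0 N ha
  have hb' : b⁻¹ ∈ Gamma1 N := inv_mem hb
  refine ⟨mul_mem (mul_mem ha0 hδ) (Gamma1_in_Gamma0 N hb'), ?_⟩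
  rw [lower_mul (mul_mem ha0 hδ), lower_mul ha0, ((Gamma1_mem N _).1 ha).2.1,
    ((Gamma1_mem N _).1 hb').2.1, one_mul, mul_one]

/-- the same for `δ ∈ Γ₁(N)` -/
theorem conj_Gamma1 {N : ℕ} {a b δ : SL(2, ℤ)} (ha : a ∈ Gamma1 N) (hb : b ∈ Gamma1 N)
    (hδ : δ ∈ Gamma1 N) : a * δ * b⁻¹ ∈ Gamma1 N :=
  mul_mem (mul_mem ha hδ) (inv_mem hb)

end Vale.Agent.P022.H875
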